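import Mathlib
import Vale.Agent.P090.Space
import Vale.Agent.P090.FreeSpace
import Vale.Agent.P090.FiniteSupport

/-!
A uniformly discrete metric space whose Lipschitz-free space fails the bounded approximation
property.
-/

namespace Vale.Agent.Results.P090.KaltonBAP

open Vale.Agent.P090 Finset

lemma hRR (L : ℕ) : 8 * ((L : ℝ) + 1) ≤ (RR L : ℝ) := by
  simp [RR]

lemma hCC (L : ℕ) : 4 * (2 * (RR L : ℝ) + 1 + 2 * (RR L : ℝ) * ((L : ℝ) + 1) + 1 + ((L : ℝ) + 1)) ≤
    (CC L : ℝ) := by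
  simp [CC]

lemma hDD (L : ℕ) : 8 * (4 * (RR L : ℝ) * ((L : ℝ) + 1) + 4) < (DD L : ℝ) := by
  simp [DD]

lemma hPP (L : ℕ) : 2 * (CC L : ℝ) ≤ (PP L : ℝ) := by
  have : 2 * CC L ≤ PP L := by unfold PP; omega
  exact_mod_cast this

lemma dist_cube_base (L : ℕ) (c : Finset (Fin (QQ L))) :
    dist (pt L (Sum.inl c)) base = (PP L : ℝ) := rfl

attribute [local irreducible] RR CC DD KK QQ PP

lemma not_bap : ¬ HasBAP (LipFree Pt base) := by
  classical
  rintro ⟨lam, hlam⟩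
  obtain ⟨L, hL⟩ := exists_nat_ge lam
  set anc : Finset (Fin (QQ L)) → Pt := fun c => pt L (Sum.inl c) with hanc
  obtain ⟨T, hfin, hT, hTK⟩ := hlam (Set.range fun c => deltaF base (anc c))
    (Set.finite_range _).isCompact (1/2) (by norm_num)
  obtain ⟨GS, Φ, ho, hh1, hh2⟩ := exists_kernel anc (Nat.cast_nonneg (PP L))
    (fun c => le_of_eq (dist_cube_base L c)) T hfin (hT.trans hL) (fun c => (hTK _ ⟨c, rfl⟩).le)
  have : Nonempty (Fin (mN L GS.card) × Finset (Fin (QQ L))) :=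
    ⟨(⟨0, (mG_spec L GS.card).2.1⟩, ∅)⟩
  refine core_contradiction (mG L GS.card) (fun x => pt L (Sum.inr ⟨GS.card, x⟩))
    (fun x => pt L (Sum.inl x.2)) base GS ho Φ
    (L := (L : ℝ) + 1) (R := (RR L : ℝ)) (C := (CC L : ℝ)) (D := DD L) (g := mg L GS.card)
    (le_add_of_nonneg_left (Nat.cast_nonneg L)) (hRR L)
    ?_ ?_ (fun u v h => one_le_dist h) ?_ ?_ ?_ ?_ ?_ ?_ ?_
    (fun x v y h => no_long L GS x v y h)
  · exact hCC L
  · exact hDD L
  · intro x
    rw [dist_comm]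
    exact le_trans (hPP L) (le_of_eq (dist_cube_base L x.2).symm)
  · intro x
    rw [dist_def]
    have := pd_le L (Sum.inr ⟨GS.card, x⟩) (Sum.inl x.2)
    simp only [lab, hd_self, add_zero] at this
    rw [pdist_pt]
    exact_mod_cast this
  · intro x y hxy
    rw [dist_def, pdist_pt]
    have h : (pd L (Sum.inr ⟨GS.card, x⟩) (Sum.inr ⟨GS.card, y⟩) : ℕ∞) ≤ 1 := by
      rw [pd_coe]
      refine le_trans (min_le_left _ _) (le_of_eq (SimpleGraph.edist_eq_one_iff_adj.2 ?_))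
      exact ⟨GS.card, x, y, rfl, rfl, hxy⟩
    exact_mod_cast (show pd L _ _ ≤ 1 by exact_mod_cast h)
  · intro x y hxy
    rw [dist_def, pdist_pt]
    have := pd_le L (Sum.inl x.2) (Sum.inl y.2)
    have h1 : hd x.2 y.2 = 1 := (mG_spec L GS.card).2.2.1 x y hxy
    simp only [lab, h1] at this
    exact_mod_cast this
  · exact (mG_spec L GS.card).2.2.2.2.1
  · exact hh1
  · intro K f hK hf0 hlip x
    exact hh2 K f hK hf0 hlip x.2

/-- There is a uniformly discrete metric space whose Lipschitz-free space fails the BAP. -/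
theorem result :
    ∃ (M : Type) (_ : MetricSpace M) (o : M),
      (∃ r > (0 : ℝ), ∀ x y : M, x ≠ y → r ≤ dist x y) ∧ ¬ HasBAP (LipFree M o) :=
  ⟨Pt, inferInstance, base, ⟨1, one_pos, fun _ _ h => one_le_dist h⟩, not_bap⟩

end Vale.Agent.Results.P090.KaltonBAP
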